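import Vale.Agent.P022.H20.GalDef

/-! # P022-L3: the Galois module `V(N, M, n)`, letters and the literal `GALStmt`

`N = 3` (or `N = 1`), `M ≥ 2`; `G(N, M) = ±(Γ(2^M) ∩ Γ₁(N))`. -/

open scoped MatrixGroups
open NumberField

noncomputable section

namespace Vale.Agent.P022.L3

/-- the group `G(N, M) = ±(Γ(2^M) ∩ Γ₁(N))`: `N 2^M ∣ γ₁₀`, `2^M ∣ γ₀₁`,
`γ₁₁ ≡ ± 1 mod N 2^M` -/
def InG (N M : ℕ) (γ : SL(2, ℤ)) : Prop :=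
  ((N * 2 ^ M : ℕ) : ℤ) ∣ γ 1 0 ∧ ((2 ^ M : ℕ) : ℤ) ∣ γ 0 1 ∧
    (((N * 2 ^ M : ℕ) : ℤ) ∣ γ 1 1 - 1 ∨ ((N * 2 ^ M : ℕ) : ℤ) ∣ γ 1 1 + 1)

/-- `V(N, M, n)`: homomorphisms `G(N, M) → ℤ/2^n` with value `0` at `-1`, as functions on
`SL₂(ℤ)` which vanish outside `G(N, M)` -/
def V (N M n : ℕ) : AddSubgroup (SL(2, ℤ) → ZMod (2 ^ n)) where
  carrier := {φ | (∀ γ, ¬ InG N M γ → φ γ = 0) ∧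
    (∀ γ δ, InG N M γ → InG N M δ → φ (γ * δ) = φ γ + φ δ) ∧ φ (-1) = 0}
  zero_mem' := ⟨fun _ _ => rfl, fun _ _ _ _ => by simp, rfl⟩
  add_mem' {a b} ha hb := by
    refine ⟨fun γ h => ?_, fun γ δ h1 h2 => ?_, ?_⟩
    · simp [ha.1 γ h, hb.1 γ h]
    · simp only [Pi.add_apply, ha.2.1 γ δ h1 h2, hb.2.1 γ δ h1 h2]; ring
    · simp [ha.2.2, hb.2.2]
  neg_mem' {a} ha := by
    refine ⟨fun γ h => ?_, fun γ δ h1 h2 => ?_, ?_⟩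
    · simp [ha.1 γ h]
    · simp only [Pi.neg_apply, ha.2.1 γ δ h1 h2]; ring
    · simp [ha.2.2]

/-- `δ = δ_a`: `δ ≡ diag(a⁻¹, a) mod 2^M`, `N ∣ δ₁₀`, `δ₁₁ ≡ a mod N` -/
def IsDel (N M : ℕ) (a : ℤ) (δ : SL(2, ℤ)) : Prop :=
  ((N * 2 ^ M : ℕ) : ℤ) ∣ δ 1 0 ∧ ((2 ^ M : ℕ) : ℤ) ∣ δ 0 1 ∧ ((N * 2 ^ M : ℕ) : ℤ) ∣ δ 1 1 - a

/-- the representatives `α_j = [1, 2^M j; 0, ℓ]` (`j < ℓ`) and `α_∞ = δ [ℓ, 0; 0, 1]` -/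
def alp (M ℓ : ℕ) (δ : SL(2, ℤ)) : Option (Fin ℓ) → Matrix (Fin 2) (Fin 2) ℤ
  | some j => !![1, (2 ^ M : ℕ) * (j.1 : ℤ); 0, (ℓ : ℤ)]
  | none => (δ : Matrix (Fin 2) (Fin 2) ℤ) * !![(ℓ : ℤ), 0; 0, 1]

/-- `ψ = T_ℓ φ`: `ψ(γ) = ∑ φ(γ_i)` where `α_i γ = γ_i α_{π i}` -/
def IsT (N M n ℓ : ℕ) (φ ψ : SL(2, ℤ) → ZMod (2 ^ n)) : Prop :=
  ∀ δ : SL(2, ℤ), IsDel N M ℓ δ → ∀ γ : SL(2, ℤ), InG N M γ →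
    ∃ (π : Equiv.Perm (Option (Fin ℓ))) (g : Option (Fin ℓ) → SL(2, ℤ)),
      (∀ i, InG N M (g i)) ∧
      (∀ i, alp M ℓ δ i * (γ : Matrix (Fin 2) (Fin 2) ℤ) =
        (g i : Matrix (Fin 2) (Fin 2) ℤ) * alp M ℓ δ (π i)) ∧
      ψ γ = ∑ i, φ (g i)

/-- `ψ = D_a φ`: `ψ(γ) = φ(δ_a γ δ_a⁻¹)` -/
def IsD (N M n : ℕ) (a : ℤ) (φ ψ : SL(2, ℤ) → ZMod (2 ^ n)) : Prop :=
  ∀ δ : SL(2, ℤ), IsDel N M a δ → ∀ γ : SL(2, ℤ), ψ γ = φ (δ * γ * δ⁻¹)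

/-- the primes `ℓ ∤ 2 N` -/
def Good (N ℓ : ℕ) : Prop := ℓ.Prime ∧ ¬ ℓ ∣ 2 * N

/-- [HEX] the operators exist (`N = 1, 3`, `2 ≤ M`) and commute -/
def HEXStmt : Prop := ∀ N M n : ℕ, (N = 1 ∨ N = 3) → 2 ≤ M →
  ∃ (T : ℕ → AddMonoid.End (V N M n)) (D : ℤ → AddMonoid.End (V N M n)),
    (∀ ℓ, Good N ℓ → ∀ φ : V N M n, IsT N M n ℓ φ (T ℓ φ)) ∧
    (∀ a : ℤ, IsCoprime a (2 * N) → ∀ φ : V N M n, IsD N M n a φ (D a φ)) ∧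
    (∀ a b : ℤ, IsCoprime a (2 * N) → IsCoprime b (2 * N) → D (a * b) = D a * D b) ∧
    (∀ a b : ℤ, IsCoprime a (2 * N) → ((N * 2 ^ M : ℕ) : ℤ) ∣ a - b → D a = D b) ∧
    (∀ a : ℤ, IsCoprime a (2 * N) → ∀ ℓ, Good N ℓ → D a * T ℓ = T ℓ * D a) ∧
    (∀ ℓ ℓ', Good N ℓ → Good N ℓ' → T ℓ * T ℓ' = T ℓ' * T ℓ)

/-- **[GAL]** (the result of chapter G) `G_ℚ` acts on `V(N, M, n)`, through a finite `2`-group,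
unramified outside `2N`, commuting with `T_ℓ`, `D_a`, and
`T_ℓ = Frob_ℓ + ℓ D_ℓ Frob_ℓ⁻¹` for every Frobenius element at every `ℓ ∤ 2N` -/
def GALStmt : Prop := ∀ N M n : ℕ, N = 3 → 2 ≤ M →
  ∃ ρ : GQ →* (AddMonoid.End (V N M n))ˣ,
    IsOpen (ρ.ker : Set GQ) ∧ (∀ g, ∃ k, ρ g ^ 2 ^ k = 1) ∧
    (∀ ℓ, Good N ℓ → ∀ P : Ideal (𝓞 Qb), P.IsPrime → (ℓ : 𝓞 Qb) ∈ P → ∀ g : GQ,
      (∀ x : 𝓞 Qb, g • x - x ∈ P) → ρ g = 1) ∧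
    (∀ ℓ, Good N ℓ → ∀ g : GQ, IsFrob ℓ g → ∀ φ ψ χ : V N M n, IsT N M n ℓ φ ψ →
      IsD N M n ℓ φ χ → (ψ : V N M n) = (ρ g : AddMonoid.End (V N M n)) φ +
        ℓ • ((ρ g⁻¹ : (AddMonoid.End (V N M n))ˣ) : AddMonoid.End (V N M n)) χ) ∧
    (∀ ℓ, Good N ℓ → ∀ g : GQ, ∀ φ ψ : V N M n, IsT N M n ℓ φ ψ →
      IsT N M n ℓ ((ρ g : AddMonoid.End (V N M n)) φ : V N M n)
        ((ρ g : AddMonoid.End (V N M n)) ψ : V N M n)) ∧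
    (∀ a : ℤ, IsCoprime a (2 * N) → ∀ g : GQ, ∀ φ ψ : V N M n, IsD N M n a φ ψ →
      IsD N M n a ((ρ g : AddMonoid.End (V N M n)) φ : V N M n)
        ((ρ g : AddMonoid.End (V N M n)) ψ : V N M n))

end Vale.Agent.P022.L3
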