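import Vale.Agent.P022.H138.L3.Defs
import Vale.Agent.P022.H542.L3.Act

/-! # P022-L3, chapter G: the two halves and the glue

`AbsStmt` = output of the algebraic half (helper542), `Fill M` = what the analysts deliver,
`gal_of : AbsStmt → (∀ M ≥ 2, Nonempty (Fill M)) → FinVStmt → GALStmt`. -/

open scoped MatrixGroups
open NumberField

noncomputable section

namespace Vale.Agent.P022.L3

open H542.L3

/-- [ABS] the output of the algebraic half of chapter G -/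
def AbsStmt : Prop := ∀ (G : Geo 6) (H : Hk G) (n : ℕ), Finite (G.V (2 ^ n)) →
  ∃ ρ : GQ →* MulAut (G.V (2 ^ n)),
    IsOpen (ρ.ker : Set GQ) ∧ (∀ x, ∃ k, ρ x ^ 2 ^ k = 1) ∧
    (∀ ℓ, Good 3 ℓ → ∀ P : Ideal (𝓞 Qb), P.IsPrime → (ℓ : 𝓞 Qb) ∈ P → ∀ x : GQ,
      (∀ y : 𝓞 Qb, x • y - y ∈ P) → ρ x = 1) ∧
    (∀ ℓ, Good 3 ℓ → ∀ x : GQ, IsFrob ℓ x → ∀ f g h : G.U (2 ^ n), (g : G.Kˣ) = H.T ℓ f →
      ((h : G.Kˣ) : G.K) = H.D ℓ ((f : G.Kˣ) : G.K) →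
      (g : G.V (2 ^ n)) = ρ x (f : G.V (2 ^ n)) * (ρ x⁻¹ (h : G.V (2 ^ n))) ^ ℓ) ∧
    (∀ ℓ, Good 3 ℓ → ∀ x : GQ, ∀ f g f' g' : G.U (2 ^ n), (g : G.Kˣ) = H.T ℓ f →
      (g' : G.Kˣ) = H.T ℓ f' → (f' : G.V (2 ^ n)) = ρ x (f : G.V (2 ^ n)) →
      (g' : G.V (2 ^ n)) = ρ x (g : G.V (2 ^ n))) ∧
    (∀ ℓ, Good 3 ℓ → ∀ x : GQ, ∀ f h f' h' : G.U (2 ^ n),
      ((h : G.Kˣ) : G.K) = H.D ℓ ((f : G.Kˣ) : G.K) →
      ((h' : G.Kˣ) : G.K) = H.D ℓ ((f' : G.Kˣ) : G.K) →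
      (f' : G.V (2 ^ n)) = ρ x (f : G.V (2 ^ n)) → (h' : G.V (2 ^ n)) = ρ x (h : G.V (2 ^ n)))

/-- [FILL] what the analytic half delivers for `G(3, M)`: the geometry (`K` = functions of
`G(3, M)`, `t = e(τ/2^M)`), the Hecke operators, and `V(3, M, n) ≅ U(2^n) / (Kˣ)^(2^n)` -/
structure Fill (M : ℕ) where
  G : Geo 6
  H : Hk G
  Ψ : ∀ n : ℕ, Multiplicative (V 3 M n) ≃* G.V (2 ^ n)
  T : ∀ (n ℓ : ℕ), Good 3 ℓ → ∀ (φ ψ : V 3 M n) (f g : G.U (2 ^ n)),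
    Ψ n (Multiplicative.ofAdd φ) = (f : G.V (2 ^ n)) → (g : G.Kˣ) = H.T ℓ f →
    IsT 3 M n ℓ φ ψ → Ψ n (Multiplicative.ofAdd ψ) = (g : G.V (2 ^ n))
  D : ∀ (n ℓ : ℕ), Good 3 ℓ → ∀ (φ ψ : V 3 M n) (f h : G.U (2 ^ n)),
    Ψ n (Multiplicative.ofAdd φ) = (f : G.V (2 ^ n)) →
    ((h : G.Kˣ) : G.K) = H.D ℓ ((f : G.Kˣ) : G.K) →
    IsD 3 M n ℓ φ ψ → Ψ n (Multiplicative.ofAdd ψ) = (h : G.V (2 ^ n))

/-- `V(3, M, n)` is finite -/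
def FinVStmt : Prop := ∀ M n : ℕ, Finite (V 3 M n)

/-- `D_ℓ` keeps `U(N)` -/
theorem D_mem_U {B : ℕ} {G : Geo B} (s : G.K ≃ₐ[IntermediateField.adjoin ℂ {G.p}] G.K) (N : ℕ)
    (f : G.Kˣ) (hf : f ∈ G.U N) : Units.map (s : G.K →* G.K) f ∈ G.U N := by
  intro a ha θ hθ
  have h1 := hf a ha (θ.comp (s.toAlgHom.restrictScalars ℂ)) (by
    have h2 : s G.p = G.p := s.commutes ⟨G.p, IntermediateField.mem_adjoin_simple_self ℂ G.p⟩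
    change θ (s G.p) = _
    rw [h2]; exact hθ)
  exact h1

/-- congruent integers coprime to `6` are congruent to a prime -/
theorem exists_prime (M : ℕ) (a : ℤ) (ha : IsCoprime a (2 * 3 : ℤ)) :
    ∃ ℓ : ℕ, Good 3 ℓ ∧ ((3 * 2 ^ M : ℕ) : ℤ) ∣ (ℓ : ℤ) - a := by
  have : NeZero (6 * (3 * 2 ^ M)) := ⟨by positivity⟩
  have hu : IsUnit ((a : ZMod (6 * (3 * 2 ^ M)))) := by
    rw [ZMod.coe_int_isUnit_iff_isCoprime]
    push_cast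
    have h6 : IsCoprime (6 : ℤ) a := by
      have := ha.symm
      norm_num at this
      exact this
    have h2 : IsCoprime (2 : ℤ) a := by
      refine IsCoprime.of_isCoprime_of_dvd_left h6 ⟨3, by norm_num⟩
    have h3 : IsCoprime (3 : ℤ) a := by
      refine IsCoprime.of_isCoprime_of_dvd_left h6 ⟨2, by norm_num⟩
    exact IsCoprime.mul_left h6 (IsCoprime.mul_left h3 (IsCoprime.pow_left h2))
  obtain ⟨p, hgt, hp, hpa⟩ := Nat.forall_exists_prime_gt_and_eq_mod hu 3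
  refine ⟨p, ⟨hp, ?_⟩, ?_⟩
  · intro h
    have h6 : p ≤ 6 := Nat.le_of_dvd (by norm_num) h
    interval_cases p <;> revert hp h <;> decide
  · have h1 : ((6 * (3 * 2 ^ M) : ℕ) : ℤ) ∣ (p : ℤ) - a := by
      refine (ZMod.intCast_eq_intCast_iff_dvd_sub a p _).1 ?_
      rw [Int.cast_natCast, hpa]
    exact (Dvd.intro_left (6 : ℤ) (by push_cast; ring)).trans h1

theorem isD_congr {N M n : ℕ} {a b : ℤ} (h : ((N * 2 ^ M : ℕ) : ℤ) ∣ b - a)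
    {φ ψ : SL(2, ℤ) → ZMod (2 ^ n)} (hD : IsD N M n a φ ψ) : IsD N M n b φ ψ := by
  intro δ hδ γ
  refine hD δ ⟨hδ.1, hδ.2.1, ?_⟩ γ
  have h3 := dvd_add hδ.2.2 h
  have e : δ 1 1 - b + (b - a) = δ 1 1 - a := by ring
  rwa [e] at h3

/-- automorphisms of the multiplicative version as units of the endomorphism ring -/
def toEnd (A : Type) [AddCommGroup A] : MulAut (Multiplicative A) →* (AddMonoid.End A)ˣ :=
  MonoidHom.toHomUnits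
    { toFun := fun e =>
        { toFun := fun a => (e (Multiplicative.ofAdd a)).toAdd
          map_zero' := by simp
          map_add' := fun a b => by simp }
      map_one' := by ext a; rfl
      map_mul' := fun a b => by ext x; rfl }

theorem toEnd_apply (A : Type) [AddCommGroup A] (e : MulAut (Multiplicative A)) (a : A) :
    (toEnd A e : AddMonoid.End A) a = (e (Multiplicative.ofAdd a)).toAdd := rfl

/-- **the glue of chapter G** -/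
theorem gal_of (hA : AbsStmt) (hF : ∀ M, 2 ≤ M → Nonempty (Fill M)) (hV : FinVStmt)
    (hX : HEXStmt) : GALStmt := by
  rintro N M n rfl hM
  obtain ⟨F⟩ := hF M hM
  obtain ⟨T, D, hT, hD, -⟩ := hX 3 M n (Or.inr rfl) hM
  have : Finite (V 3 M n) := hV M n
  have hfin : Finite (F.G.V (2 ^ n)) := Finite.of_equiv _ (F.Ψ n).toEquiv
  obtain ⟨ρ0, hopen, h2, hunr, hES, hcT, hcD⟩ := hA F.G F.H n hfin
  let ρ : GQ →* (AddMonoid.End (V 3 M n))ˣ :=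
    (toEnd (V 3 M n)).comp (((MulAut.congr (F.Ψ n).symm).toMonoidHom).comp ρ0)
  have hρ : ∀ x (a : V 3 M n), F.Ψ n (Multiplicative.ofAdd ((ρ x : AddMonoid.End (V 3 M n)) a)) =
      ρ0 x (F.Ψ n (Multiplicative.ofAdd a)) := by
    intro x a
    change F.Ψ n ((F.Ψ n).symm (ρ0 x ((F.Ψ n).symm.symm (Multiplicative.ofAdd a)))) = _
    rw [MulEquiv.apply_symm_apply]
    rfl
  have hinj : ∀ a b : V 3 M n, F.Ψ n (Multiplicative.ofAdd a) = F.Ψ n (Multiplicative.ofAdd b) →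
      a = b := fun a b h => Multiplicative.ofAdd.injective ((F.Ψ n).injective h)
  have hsur : ∀ a : V 3 M n, ∃ f : F.G.U (2 ^ n), F.Ψ n (Multiplicative.ofAdd a) =
      (f : F.G.V (2 ^ n)) := fun a => by
    obtain ⟨f, hf⟩ := QuotientGroup.mk_surjective (F.Ψ n (Multiplicative.ofAdd a))
    exact ⟨f, hf.symm⟩
  refine ⟨ρ, ?_, ?_, ?_, ?_, ?_, ?_⟩
  · refine Subgroup.isOpen_mono (H₁ := ρ0.ker) ?_ hopen
    intro x hx
    rw [MonoidHom.mem_ker] at hx ⊢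
    change (toEnd (V 3 M n)) ((MulAut.congr (F.Ψ n).symm) (ρ0 x)) = 1
    rw [hx, map_one, map_one]
  · intro x
    obtain ⟨k, hk⟩ := h2 x
    refine ⟨k, ?_⟩
    rw [← map_pow]
    change (toEnd (V 3 M n)) ((MulAut.congr (F.Ψ n).symm) (ρ0 (x ^ 2 ^ k))) = 1
    rw [map_pow, hk, map_one, map_one]
  · intro ℓ hℓ P hP hlP x hx
    change (toEnd (V 3 M n)) ((MulAut.congr (F.Ψ n).symm) (ρ0 x)) = 1
    rw [hunr ℓ hℓ P hP hlP x hx, map_one, map_one]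
  · intro ℓ hℓ x hx φ ψ χ hφψ hφχ
    obtain ⟨f, hf⟩ := hsur φ
    let g : F.G.U (2 ^ n) := ⟨F.H.T ℓ f, F.H.TU ℓ hℓ.1 (by simpa using hℓ.2) n f f.2⟩
    let h : F.G.U (2 ^ n) := ⟨_, D_mem_U (F.H.D ℓ) (2 ^ n) f f.2⟩
    have e1 := F.T n ℓ hℓ φ ψ f g hf rfl hφψ
    have e2 := F.D n ℓ hℓ φ χ f h hf rfl hφχ
    have e3 := hES ℓ hℓ x hx f g h rfl rfl
    apply hinj
    rw [e1, e3, ofAdd_add, map_mul, hρ, ofAdd_nsmul, map_pow, hρ, hf, e2]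
  · intro ℓ hℓ x φ ψ hφψ
    obtain ⟨f, hf⟩ := hsur φ
    obtain ⟨f', hf'⟩ := hsur ((ρ x : AddMonoid.End (V 3 M n)) φ)
    let g : F.G.U (2 ^ n) := ⟨F.H.T ℓ f, F.H.TU ℓ hℓ.1 (by simpa using hℓ.2) n f f.2⟩
    let g' : F.G.U (2 ^ n) := ⟨F.H.T ℓ f', F.H.TU ℓ hℓ.1 (by simpa using hℓ.2) n f' f'.2⟩
    have e1 := F.T n ℓ hℓ φ ψ f g hf rfl hφψ
    have h1 := hT ℓ hℓ ((ρ x : AddMonoid.End (V 3 M n)) φ)
    have e2 := F.T n ℓ hℓ _ _ f' g' hf' rfl h1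
    have e3 := hcT ℓ hℓ x f g f' g' rfl rfl (by rw [← hf', ← hf, hρ])
    have e4 : (T ℓ) ((ρ x : AddMonoid.End (V 3 M n)) φ) = (ρ x : AddMonoid.End (V 3 M n)) ψ := by
      apply hinj
      rw [e2, e3, hρ, e1]
    rw [← e4]
    exact h1
  · intro a ha x φ ψ hφψ
    obtain ⟨ℓ, hℓ, hla⟩ := exists_prime M a ha
    have hla' : ((3 * 2 ^ M : ℕ) : ℤ) ∣ a - (ℓ : ℤ) := by
      have := (dvd_neg).2 hla
      rwa [neg_sub] at this
    have hφψ' := isD_congr hla hφψ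
    obtain ⟨f, hf⟩ := hsur φ
    obtain ⟨f', hf'⟩ := hsur ((ρ x : AddMonoid.End (V 3 M n)) φ)
    let h : F.G.U (2 ^ n) := ⟨_, D_mem_U (F.H.D ℓ) (2 ^ n) f f.2⟩
    let h' : F.G.U (2 ^ n) := ⟨_, D_mem_U (F.H.D ℓ) (2 ^ n) f' f'.2⟩
    have e1 := F.D n ℓ hℓ φ ψ f h hf rfl hφψ'
    have h1 := hD ℓ (by
      have h6 := Nat.isCoprime_iff_coprime.2 ((Nat.Prime.coprime_iff_not_dvd hℓ.1).2 hℓ.2)
      exact_mod_cast h6) ((ρ x : AddMonoid.End (V 3 M n)) φ)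
    have e2 := F.D n ℓ hℓ _ _ f' h' hf' rfl h1
    have e3 := hcD ℓ hℓ x f h f' h' rfl rfl (by rw [← hf', ← hf, hρ])
    have e4 : (D ℓ) ((ρ x : AddMonoid.End (V 3 M n)) φ) = (ρ x : AddMonoid.End (V 3 M n)) ψ := by
      apply hinj
      rw [e2, e3, hρ, e1]
    rw [← e4]
    exact isD_congr hla' h1

end Vale.Agent.P022.L3

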