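import Vale.Agent.P022.H138.L3.Fill
import Vale.Agent.P022.H527.L3.Hex
import Vale.Agent.P022.H908.L3.GM

/-! # P022-L3, chapter G: `V(3, M, n)` is finite -/

open scoped MatrixGroups
open CongruenceSubgroup

namespace Vale.Agent.P022.L3

theorem finV : FinVStmt := by
  intro M n
  have hL : NeZero (3 * 2 ^ M) := ⟨by positivity⟩
  have hle : Gamma (3 * 2 ^ M) ≤ H527.L3.Gs 3 M := by
    intro γ hγ
    obtain ⟨-, h01, h10, h11⟩ := Gamma_mem.1 hγ
    rw [H527.L3.mem_Gs]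
    have h1 : ((3 * 2 ^ M : ℕ) : ℤ) ∣ γ 0 1 := (ZMod.intCast_zmod_eq_zero_iff_dvd _ _).1 h01
    have h2 : ((3 * 2 ^ M : ℕ) : ℤ) ∣ γ 1 0 := (ZMod.intCast_zmod_eq_zero_iff_dvd _ _).1 h10
    have h3 : ((3 * 2 ^ M : ℕ) : ℤ) ∣ γ 1 1 - 1 := by
      refine (ZMod.intCast_zmod_eq_zero_iff_dvd _ _).1 ?_
      push_cast
      rw [h11, sub_self]
    exact ⟨h2, (Int.natCast_dvd_natCast.2 ⟨3, mul_comm _ _⟩).trans h1, Or.inl h3⟩
  have h1 : (H527.L3.Gs 3 M).FiniteIndex := Subgroup.finiteIndex_of_le hle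
  have h2 : Finite (H527.L3.Gs 3 M →* Multiplicative (ZMod (2 ^ n))) :=
    H908.GM.finite_char (H527.L3.Gs 3 M) (Multiplicative (ZMod (2 ^ n)))
  exact Finite.of_injective H527.L3.toH fun _ _ => H527.L3.toH_inj

/-- chapter G from its two open halves -/
theorem gal_of_two (hA : AbsStmt) (hF : ∀ M, 2 ≤ M → Nonempty (Fill M)) : GALStmt :=
  gal_of hA hF finV H527.L3.hex

end Vale.Agent.P022.L3
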