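import Vale.Agent.P022.H138.L3.FinV
import Vale.Agent.P022.H542.L3.Abs
import Vale.Agent.P022.H406.L3.FillM

/-! # P022-L3: chapter G is closed -/

namespace Vale.Agent.P022.L3

/-- **[GAL]** -/
theorem gal : GALStmt := gal_of_two H542.L3.abs H406.L3.fill

/-- **[HEX]** -/
theorem hex : HEXStmt := H527.L3.hex

end Vale.Agent.P022.L3
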